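import Vale.Agent.P216.AS.MVSets

/-!
# P216-C3, coefficients of any characteristic, no symmetries

The theorems of `AS/Taut.lean` and `AS/MVSets.lean` with `IsEmpty I` in place of `AS.Tw`
(which asks `2 ≠ 0` in `k`).
-/

set_option linter.all false

open Set Matrix

namespace Vale.Agent.P216.F2

open Vale.Agent.P216.AS

variable {E : Type} {k : Type} [Field k] {I : Type}

/-- No symmetries. -/
def Tw (a : I → E → E) (χ : I → k) (X : Set E) : Prop := IsEmpty I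

/-- No averaging. -/
def av (a : I → E → E) (χ : I → k) (n : ℕ) : ((Fin n → E) → k) →ₗ[k] ((Fin n → E) → k) :=
  LinearMap.id

theorem d_av (a : I → E → E) (χ : I → k) {n : ℕ} (f : (Fin n → E) → k) :
    P265.AS.d (av a χ n f) = av a χ (n + 1) (P265.AS.d f) := rfl

section

variable [PseudoMetricSpace E] {a : I → E → E} {χ : I → k} {X A B : Set E}

theorem Tw.mono (h : Tw a χ X) (hA : A ⊆ X) : Tw a χ A := h

theorem Tw.of_isEmpty [h : IsEmpty I] : Tw a χ X := h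

theorem av_eqv (h : Tw a χ X) (hX : Inv a X) {n : ℕ} (f : (Fin n → E) → k) :
    Eqv a χ X (av a χ n f) := fun i => (h.false i).elim

theorem av_eq (h : Tw a χ X) {n : ℕ} {f : (Fin n → E) → k} (hf : Eqv a χ X f)
    {x : Fin n → E} (hx : ∀ j, x j ∈ X) : av a χ n f x = f x := rfl

theorem av_van (h : Tw a χ A) (hA : Inv a A) {n : ℕ} {f : (Fin n → E) → k} (hf : Van A f) :
    Van A (av a χ n f) := hf

theorem av_vanN (h : Tw a χ X) (hX : Inv a X) (hA : Inv a A) (hAX : A ⊆ X) {n : ℕ}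
    {f : (Fin n → E) → k} (hf : VanN X A f) : VanN X A (av a χ n f) := hf

theorem taut_mem (h : Tw a χ X) (hX : Inv a X) (hA : IsCompact A) (hAX : A ⊆ X)
    (hAi : Inv a A) {n : ℕ} {f : (Fin (n + 1) → E) → k}
    (hf : f ∈ Zc (Zr a χ X A) (Zn a χ X A) n) : f ∈ Bc (Zr a χ X A) (Zn a χ X A) n := by
  obtain ⟨⟨hfE, ε₀, hε₀, h0⟩, -, ε₁, hε₁, h1⟩ := hf
  have h0' : ∀ x, Sm A ε₀ x → f x = 0 := h0
  have h1' : ∀ x, SmN X A ε₁ x → P265.AS.d f x = 0 := h1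
  set ν := near A 1 with hν
  have hA0 : ∀ x ∈ A, dist x (ν x) ≤ 0 := fun x hx => by
    have := (near_spec hA hx (r := 1) (x := x) (by simp)).2
    simpa using this
  -- the primitive
  have hg : Van A (P265.AS.prism ν id f) := by
    refine ⟨ε₀, hε₀, fun x hx => P265.AS.prism_eq_zero _ _ fun y hy => h0' y ?_⟩
    refine ⟨mixed_mem hx.1 (fun i => near_mem le_rfl 1 (hx.1 i)) hy, fun i j => ?_⟩
    have := mixed_dist le_rfl hx.2 (fun i => hA0 _ (hx.1 i)) hy i j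
    simpa using this
  have hh : VanN X A (f - P265.AS.d (P265.AS.prism ν id f)) := by
    rw [sub_d_prism]
    have hpos : 0 < min (min (ε₀ / 3) (ε₁ / 3)) 1 := by positivity
    refine ⟨min (min (ε₀ / 3) (ε₁ / 3)) 1, hpos, fun x hx => ?_⟩
    set ε := min (min (ε₀ / 3) (ε₁ / 3)) 1 with hε
    have e0 : ε ≤ ε₀ / 3 := (min_le_left _ _).trans (min_le_left _ _)
    have e1 : ε ≤ ε₁ / 3 := (min_le_left _ _).trans (min_le_right _ _)
    have e2 : ε ≤ 1 := min_le_right _ _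
    have hν' : ∀ i, ν (x i) ∈ A ∧ dist (x i) (ν (x i)) < ε := fun i => by
      obtain ⟨y, hy, hxy⟩ := hx.2 i
      have := near_spec hA hy (hxy.trans_le e2)
      exact ⟨this.1, this.2.trans_lt hxy⟩
    rw [Pi.add_apply, P265.AS.pb_apply, h0' (ν ∘ x), zero_add]
    · refine P265.AS.prism_eq_zero _ _ fun y hy => h1' y ⟨⟨mixed_mem hx.1.1
        (fun i => hAX (hν' i).1) hy, fun i j => ?_⟩, fun i => ?_⟩
      · have := mixed_dist hpos.le hx.1.2 (fun i => (hν' i).2.le) hy i j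
        linarith
      · obtain ⟨l, hl | hl⟩ := hy i
        · exact ⟨ν (x l), (hν' l).1, by rw [hl]; simpa using hε₁⟩
        · exact ⟨ν (x l), (hν' l).1, by rw [hl]; exact (hν' l).2.trans_le (by linarith)⟩
    · refine ⟨fun i => (hν' i).1, fun i j => ?_⟩
      have h3 := hx.1.2 i j
      have h4 := (hν' i).2
      have h5 := (hν' j).2
      have h6 := dist_triangle4 (ν (x i)) (x i) (x j) (ν (x j))
      rw [dist_comm (ν (x i)) (x i)] at h6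
      change dist (ν (x i)) (ν (x j)) < ε₀
      linarith
  -- averaging
  have hfin : VanN X A (f - P265.AS.d (av a χ n (P265.AS.prism ν id f))) := by
    have h3 := av_vanN h hX hAi hAX hh
    rw [map_sub, ← d_av] at h3
    obtain ⟨ε, hε, h4⟩ := h3
    refine ⟨ε, hε, fun x hx => ?_⟩
    have h5 := h4 x hx
    rw [Pi.sub_apply, av_eq h hfE hx.1.1] at h5
    exact h5
  have hE : Eqv a χ X (f - P265.AS.d (av a χ n (P265.AS.prism ν id f))) :=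
    hfE.sub (av_eqv h hX _).d
  cases n with
  | zero =>
    rw [mem_Bc_zero]
    have h6 : P265.AS.d (av a χ 0 (P265.AS.prism ν id f)) = 0 := by
      change P265.AS.d (av a χ 0 (0 : (Fin 0 → E) → k)) = 0
      rw [map_zero, P265.AS.d_zero]
    rw [h6, sub_zero] at hfin hE
    exact ⟨hE, hfin⟩
  | succ n =>
    rw [mem_Bc_succ]
    exact ⟨av a χ (n + 1) (P265.AS.prism ν id f),
      ⟨av_eqv h hX _, av_van (h.mono hAX) hAi hg⟩, hE, hfin⟩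

/-- (T1) **Tautness**. -/
theorem taut (h : Tw a χ X) (hX : Inv a X) (hA : IsCompact A) (hAX : A ⊆ X)
    (hAi : Inv a A) (n : ℕ) : Subsingleton (H (Zr a χ X A) (Zn a χ X A) n) :=
  H.subsingleton_iff.2 fun _ hx => taut_mem h hX hA hAX hAi hx

end

section MetricSp

variable [MetricSpace E] {a : I → E → E} {χ : I → k} {X A B : Set E}

theorem mv_acyclic_mem (h : Tw a χ X) (hX : Inv a X) (hA : IsCompact A) (hB : IsCompact B)
    (hAX : A ⊆ X) (hBX : B ⊆ X) (hAi : Inv a A) (hBi : Inv a B) {n : ℕ}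
    {f : (Fin (n + 1) → E) → k}
    (hf : f ∈ Zc (Zr a χ X A ⊓ Zr a χ X B) (Zr a χ X (A ∪ B)) n) :
    f ∈ Bc (Zr a χ X A ⊓ Zr a χ X B) (Zr a χ X (A ∪ B)) n := by
  obtain ⟨⟨⟨hfE, ε₁, hε₁, h1⟩, -, ε₂, hε₂, h2⟩, -, ε₃, hε₃, h3⟩ := hf
  have h1' : ∀ x, Sm A ε₁ x → f x = 0 := h1
  have h2' : ∀ x, Sm B ε₂ x → f x = 0 := h2
  have h3' : ∀ x, Sm (A ∪ B) ε₃ x → P265.AS.d f x = 0 := h3
  set ε₀ := min (min ε₁ ε₂) ε₃ with hε₀d
  have hε₀ : 0 < ε₀ := by positivity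
  have e1 : ε₀ ≤ ε₁ := (min_le_left _ _).trans (min_le_left _ _)
  have e2 : ε₀ ≤ ε₂ := (min_le_left _ _).trans (min_le_right _ _)
  have e3 : ε₀ ≤ ε₃ := min_le_right _ _
  set r := ε₀ / 3 with hr
  have hr0 : 0 < r := by positivity
  obtain ⟨δ, hδ, hAB⟩ := exists_near_inter hA hB (r := r / 2) (by positivity)
  set ν := near (A ∩ B) r with hν
  have hνA : ∀ x ∈ A, ν x ∈ A := fun x hx => near_mem inter_subset_left r hx
  have hνB : ∀ x ∈ B, ν x ∈ B := fun x hx => near_mem inter_subset_right r hx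
  have hνd : ∀ x, dist x (ν x) ≤ r := fun x => (dist_near_lt _ hr0 x).le
  have hgA : Van A (P265.AS.prism ν id f) := by
    refine ⟨r, hr0, fun x hx => P265.AS.prism_eq_zero _ _ fun y hy => h1' y ?_⟩
    refine ⟨mixed_mem hx.1 (fun i => hνA _ (hx.1 i)) hy, fun i j => ?_⟩
    have := mixed_dist hr0.le hx.2 (fun i => hνd _) hy i j
    linarith
  have hgB : Van B (P265.AS.prism ν id f) := by
    refine ⟨r, hr0, fun x hx => P265.AS.prism_eq_zero _ _ fun y hy => h2' y ?_⟩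
    refine ⟨mixed_mem hx.1 (fun i => hνB _ (hx.1 i)) hy, fun i j => ?_⟩
    have := mixed_dist hr0.le hx.2 (fun i => hνd _) hy i j
    linarith
  have hcompB : ∀ x ∈ B, ∀ y ∈ A, dist x y < δ → ∃ c ∈ A ∩ B, dist y c < r / 2 :=
    fun x hx y hy hxy => hAB y hy x hx (by rwa [dist_comm])
  have hh : Van (A ∪ B) (f - P265.AS.d (P265.AS.prism ν id f)) := by
    rw [sub_d_prism]
    have hpos : 0 < min δ (r / 2) := by positivity
    refine ⟨min δ (r / 2), hpos, fun x hx => ?_⟩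
    have d1 : ∀ i j, dist (x i) (x j) < δ := fun i j => (hx.2 i j).trans_le (min_le_left _ _)
    have d2 : ∀ i j, dist (x i) (x j) < r / 2 := fun i j =>
      (hx.2 i j).trans_le (min_le_right _ _)
    have dν : ∀ i j, dist (ν (x i)) (ν (x j)) < ε₀ := fun i j => by
      have h6 := dist_triangle4 (ν (x i)) (x i) (x j) (ν (x j))
      rw [dist_comm (ν (x i)) (x i)] at h6
      have := hνd (x i)
      have := hνd (x j)
      have := d2 i j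
      linarith
    rw [Pi.add_apply, P265.AS.pb_apply]
    have hpb : f (ν ∘ x) = 0 := by
      by_cases hxA : ∀ i, x i ∈ A
      · exact h1' _ ⟨fun i => hνA _ (hxA i), fun i j => (dν i j).trans_le e1⟩
      · by_cases hxB : ∀ i, x i ∈ B
        · exact h2' _ ⟨fun i => hνB _ (hxB i), fun i j => (dν i j).trans_le e2⟩
        · push Not at hxA hxB
          obtain ⟨i, hi⟩ := hxA
          obtain ⟨j, hj⟩ := hxB
          have hiB : x i ∈ B := (hx.1 i).resolve_left hi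
          have hjA : x j ∈ A := (hx.1 j).resolve_right hj
          obtain ⟨c, hc, hcj⟩ := hcompB _ hiB _ hjA (d1 i j)
          refine h1' _ ⟨fun l => ?_, fun i j => (dν i j).trans_le e1⟩
          have : dist (x l) c < r := by
            have := dist_triangle (x l) (x j) c
            have := d2 l j
            linarith
          exact (near_spec (hA.inter_right hB.isClosed) hc this).1.1
    rw [hpb, zero_add]
    refine P265.AS.prism_eq_zero _ _ fun y hy => h3' y ⟨mixed_mem hx.1 (fun i => ?_) hy,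
      fun i j => ?_⟩
    · rcases hx.1 i with hi | hi
      · exact Or.inl (hνA _ hi)
      · exact Or.inr (hνB _ hi)
    · have := mixed_dist hr0.le d2 (fun i => hνd _) hy i j
      linarith
  -- averaging
  have hABX : A ∪ B ⊆ X := union_subset hAX hBX
  have hfin : Van (A ∪ B) (f - P265.AS.d (av a χ n (P265.AS.prism ν id f))) := by
    have h4 := av_van (h.mono hABX) (hAi.union hBi) hh
    rw [map_sub, ← d_av] at h4
    obtain ⟨ε, hε, h4⟩ := h4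
    refine ⟨ε, hε, fun x hx => ?_⟩
    have h5 := h4 x hx
    rw [Pi.sub_apply, av_eq h hfE fun j => hABX (hx.1 j)] at h5
    exact h5
  have hE : Eqv a χ X (f - P265.AS.d (av a χ n (P265.AS.prism ν id f))) :=
    hfE.sub (av_eqv h hX _).d
  cases n with
  | zero =>
    rw [mem_Bc_zero]
    have h6 : P265.AS.d (av a χ 0 (P265.AS.prism ν id f)) = 0 := by
      change P265.AS.d (av a χ 0 (0 : (Fin 0 → E) → k)) = 0
      rw [map_zero, P265.AS.d_zero]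
    rw [h6, sub_zero] at hfin hE
    exact ⟨hE, hfin⟩
  | succ n =>
    rw [mem_Bc_succ]
    exact ⟨av a χ (n + 1) (P265.AS.prism ν id f),
      ⟨⟨av_eqv h hX _, av_van (h.mono hAX) hAi hgA⟩,
        ⟨av_eqv h hX _, av_van (h.mono hBX) hBi hgB⟩⟩, hE, hfin⟩

/-- (T2) **Exact Mayer-Vietoris** for compact sets. -/
theorem mv_acyclic (h : Tw a χ X) (hX : Inv a X) (hA : IsCompact A) (hB : IsCompact B)
    (hAX : A ⊆ X) (hBX : B ⊆ X) (hAi : Inv a A) (hBi : Inv a B) (n : ℕ) :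
    Subsingleton (H (Zr a χ X A ⊓ Zr a χ X B) (Zr a χ X (A ∪ B)) n) :=
  H.subsingleton_iff.2 fun _ hx => mv_acyclic_mem h hX hA hB hAX hBX hAi hBi hx

/-- `H(Zr(A' ∪ B') / Zr(A ∪ B)) → H((Zr A' ⊓ Zr B') / (Zr A ⊓ Zr B))` is bijective. -/
theorem union_bijective {W A' B' : Set E} (h : Tw a χ W) (hW : Inv a W) (hA : IsCompact A)
    (hB : IsCompact B) (hA' : IsCompact A') (hB' : IsCompact B') (hAW : A ⊆ W) (hBW : B ⊆ W)
    (hAA : A' ⊆ A) (hBB : B' ⊆ B) (iA : Inv a A) (iB : Inv a B) (iA' : Inv a A')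
    (iB' : Inv a B') (n : ℕ) :
    Function.Bijective (Hinc (Zr_union_le (X := W) (A := A') (B := B'))
      (Zr_union_le (X := W) (A := A) (B := B)) n :
      H (Zr a χ W (A' ∪ B')) (Zr a χ W (A ∪ B)) n →ₗ[k]
        H (Zr a χ W A' ⊓ Zr a χ W B') (Zr a χ W A ⊓ Zr a χ W B) n) :=
  Hinc_bijective (Zr_anti le_rfl (union_subset_union hAA hBB)) Zr_union_le Zr_union_le
    (inf_le_inf (Zr_anti le_rfl hAA) (Zr_anti le_rfl hBB))
    (fun m => mv_acyclic h hW hA' hB' (hAA.trans hAW) (hBB.trans hBW) iA' iB' m)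
    (fun m => mv_acyclic h hW hA hB hAW hBW iA iB m) n

/-- **Strong excision** for compact sets: `H(B, A) → H(N, N₀)` is bijective if `B = A ∪ N` and
`N₀ = A ∩ N`. -/
theorem strong_excision {A N B N₀ : Set E} (h : Tw a χ B) (hA : IsCompact A) (hN : IsCompact N)
    (hAi : Inv a A) (hNi : Inv a N) (hB : B = A ∪ N) (hN₀ : N₀ = A ∩ N) (hNB : N ⊆ B)
    (hNA : N₀ ⊆ A) (n : ℕ) :
    Function.Bijective (resR hNB hNA n : Hr a χ B A n →ₗ[k] Hr a χ N N₀ n) := by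
  have hAB : A ⊆ B := hB ▸ subset_union_left
  have hBi : Inv a B := hB ▸ hAi.union hNi
  -- first step
  have l1 : Zr a χ B B ≤ Zr a χ B A ⊓ Zr a χ B N :=
    le_inf (Zr_anti le_rfl hAB) (Zr_anti le_rfl hNB)
  have b1 := Hinc_bijective_of_bot (T := Zr a χ B B) (T' := Zr a χ B A ⊓ Zr a χ B N)
    (S := Zr a χ B A) l1 inf_le_left (fun m => by
      have := mv_acyclic h hBi hA hN hAB hNB hAi hNi m
      rwa [← hB] at this) n
  have b2 := Hinc_second_iso (Zr a χ B A) (Zr a χ B N) n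
  have e3 : Zr a χ B A ⊔ Zr a χ B N = Zr a χ B N₀ := by rw [Zr_sup hAi, hN₀]
  have b3 := world_bijective (k := k) (a := a) (χ := χ) (X := B) (Y := N) (A := N) (B := N₀) hNB
    le_rfl (by rw [hN₀]; exact inter_subset_right) hNi n
  constructor
  · intro x y hxy
    apply b1.1
    apply b2.1
    have l2 : Zr a χ B A ⊔ Zr a χ B N ≤ Zr a χ B N₀ := e3.le
    have hinj : Function.Injective (Hinc l2 (le_refl (Zr a χ B N)) n :
        H (Zr a χ B A ⊔ Zr a χ B N) (Zr a χ B N) n →ₗ[k] H (Zr a χ B N₀) (Zr a χ B N) n) := by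
      refine Hmap_injective (IsMor.id_of_le l2 le_rfl) (fun _ hx => hx) fun {n y} hy => ?_
      exact ⟨y, by rw [e3]; exact hy, by simp⟩
    apply hinj
    apply b3.1
    rw [Hinc_comp, Hinc_comp, Hinc_comp, Hinc_comp, Hinc_comp, Hinc_comp]
    exact hxy
  · intro z
    obtain ⟨z₁, rfl⟩ := b3.2 z
    have l2 : Zr a χ B A ⊔ Zr a χ B N ≤ Zr a χ B N₀ := e3.le
    have hsurj : Function.Surjective (Hinc l2 (le_refl (Zr a χ B N)) n :
        H (Zr a χ B A ⊔ Zr a χ B N) (Zr a χ B N) n →ₗ[k] H (Zr a χ B N₀) (Zr a χ B N) n) := by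
      refine Hmap_surjective (IsMor.id_of_le l2 le_rfl) (fun _ hx => hx) fun {n y} hy => ?_
      exact ⟨y, by rw [e3]; exact hy, by simp⟩
    obtain ⟨z₂, rfl⟩ := hsurj z₁
    obtain ⟨z₃, rfl⟩ := b2.2 z₂
    obtain ⟨z₄, rfl⟩ := b1.2 z₃
    refine ⟨z₄, ?_⟩
    rw [Hinc_comp, Hinc_comp, Hinc_comp]
    rfl

section Thick

variable {A₀ A₀' A₁ A₁' A₂ A₂' B₀ B₀' B₁ B₁' B₂ B₂' : Set E}

/-- **Thick Mayer-Vietoris inequality** for three nested levels of compact invariant pairs. -/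
theorem mv_rank_sets (h : Tw a χ (A₀ ∪ B₀))
    (cA₀ : IsCompact A₀) (cB₀ : IsCompact B₀) (cA₀' : IsCompact A₀') (cB₀' : IsCompact B₀')
    (cA₂ : IsCompact A₂) (cB₂ : IsCompact B₂) (cA₂' : IsCompact A₂') (cB₂' : IsCompact B₂')
    (iA₀ : Inv a A₀) (iB₀ : Inv a B₀) (iA₀' : Inv a A₀') (iB₀' : Inv a B₀')
    (iA₁ : Inv a A₁) (iB₁ : Inv a B₁) (iA₁' : Inv a A₁') (iB₁' : Inv a B₁')
    (iA₂ : Inv a A₂) (iB₂ : Inv a B₂) (iA₂' : Inv a A₂') (iB₂' : Inv a B₂')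
    (pA₀ : A₀' ⊆ A₀) (pB₀ : B₀' ⊆ B₀) (pA₁ : A₁' ⊆ A₁) (pB₁ : B₁' ⊆ B₁) (pA₂ : A₂' ⊆ A₂)
    (pB₂ : B₂' ⊆ B₂)
    (a₁ : A₁ ⊆ A₀) (a₁' : A₁' ⊆ A₀') (b₁ : B₁ ⊆ B₀) (b₁' : B₁' ⊆ B₀')
    (a₂ : A₂ ⊆ A₁) (a₂' : A₂' ⊆ A₁') (b₂ : B₂ ⊆ B₁) (b₂' : B₂' ⊆ B₁') (n : ℕ) :
    LinearMap.rank (resR (union_subset_union (a₂.trans a₁) (b₂.trans b₁))
      (union_subset_union (a₂'.trans a₁') (b₂'.trans b₁')) (n + 1) :
        Hr a χ (A₀ ∪ B₀) (A₀' ∪ B₀') (n + 1) →ₗ[k] Hr a χ (A₂ ∪ B₂) (A₂' ∪ B₂') (n + 1)) ≤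
      LinearMap.rank (resR a₁ a₁' (n + 1) : Hr a χ A₀ A₀' (n + 1) →ₗ[k] Hr a χ A₁ A₁' (n + 1)) +
      LinearMap.rank (resR b₁ b₁' (n + 1) : Hr a χ B₀ B₀' (n + 1) →ₗ[k] Hr a χ B₁ B₁' (n + 1)) +
      LinearMap.rank (resR (inter_subset_inter a₂ b₂) (inter_subset_inter a₂' b₂') n :
        Hr a χ (A₁ ∩ B₁) (A₁' ∩ B₁') n →ₗ[k] Hr a χ (A₂ ∩ B₂) (A₂' ∩ B₂') n) := by
  have iW : Inv a (A₀ ∪ B₀) := iA₀.union iB₀
  have wA₀ : A₀ ⊆ A₀ ∪ B₀ := subset_union_left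
  have wB₀ : B₀ ⊆ A₀ ∪ B₀ := subset_union_right
  have wA₁ := a₁.trans wA₀
  have wB₁ := b₁.trans wB₀
  have wA₂ := a₂.trans wA₁
  have wB₂ := b₂.trans wB₁
  have main := mv_rank_le (k := k) (R₁'' := Zr a χ (A₀ ∪ B₀) A₀') (S₁'' := Zr a χ (A₀ ∪ B₀) A₀)
    (R₂'' := Zr a χ (A₀ ∪ B₀) B₀') (S₂'' := Zr a χ (A₀ ∪ B₀) B₀)
    (R₁' := Zr a χ (A₀ ∪ B₀) A₁') (S₁' := Zr a χ (A₀ ∪ B₀) A₁)
    (R₂' := Zr a χ (A₀ ∪ B₀) B₁') (S₂' := Zr a χ (A₀ ∪ B₀) B₁)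
    (R₁ := Zr a χ (A₀ ∪ B₀) A₂') (S₁ := Zr a χ (A₀ ∪ B₀) A₂)
    (R₂ := Zr a χ (A₀ ∪ B₀) B₂') (S₂ := Zr a χ (A₀ ∪ B₀) B₂) n
    (Zr_anti le_rfl pA₁) (Zr_anti le_rfl pB₁) (Zr_anti le_rfl pA₂) (Zr_anti le_rfl pB₂)
    (Zr_anti le_rfl a₁') (Zr_anti le_rfl a₁) (Zr_anti le_rfl b₁') (Zr_anti le_rfl b₁)
    (Zr_anti le_rfl a₂') (Zr_anti le_rfl a₂) (Zr_anti le_rfl b₂') (Zr_anti le_rfl b₂)
  refine le_trans ?_ (main.trans (add_le_add (add_le_add ?_ ?_) ?_))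
  · -- the union
    have u := union_subset_union (a₂.trans a₁) (b₂.trans b₁)
    have u' := union_subset_union (a₂'.trans a₁') (b₂'.trans b₁')
    have p1 : Zr a χ (A₀ ∪ B₀) (A₀' ∪ B₀') ≤ Zr a χ (A₀ ∪ B₀) (A₂' ∪ B₂') := Zr_anti le_rfl u'
    have p2 : Zr a χ (A₀ ∪ B₀) (A₀ ∪ B₀) ≤ Zr a χ (A₀ ∪ B₀) (A₂ ∪ B₂) := Zr_anti le_rfl u
    have q1 : Zr a χ (A₀ ∪ B₀) (A₂' ∪ B₂') ≤ Zr a χ (A₂ ∪ B₂) (A₂' ∪ B₂') := Zr_anti u le_rfl
    have q2 : Zr a χ (A₀ ∪ B₀) (A₂ ∪ B₂) ≤ Zr a χ (A₂ ∪ B₂) (A₂ ∪ B₂) := Zr_anti u le_rfl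
    have e1 : LinearMap.rank (resR (union_subset_union (a₂.trans a₁) (b₂.trans b₁))
      (union_subset_union (a₂'.trans a₁') (b₂'.trans b₁')) (n + 1) :
        Hr a χ (A₀ ∪ B₀) (A₀' ∪ B₀') (n + 1) →ₗ[k] Hr a χ (A₂ ∪ B₂) (A₂' ∪ B₂') (n + 1)) ≤
        LinearMap.rank (Hinc p1 p2 (n + 1)) := by
      have e2 : (resR (union_subset_union (a₂.trans a₁) (b₂.trans b₁))
          (union_subset_union (a₂'.trans a₁') (b₂'.trans b₁')) (n + 1) :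
          Hr a χ (A₀ ∪ B₀) (A₀' ∪ B₀') (n + 1) →ₗ[k] Hr a χ (A₂ ∪ B₂) (A₂' ∪ B₂') (n + 1)) =
          Hinc q1 q2 (n + 1) ∘ₗ Hinc p1 p2 (n + 1) :=
        LinearMap.ext fun x => (Hinc_comp p1 p2 q1 q2 x).symm
      rw [e2]
      exact LinearMap.rank_comp_le_right _ _
    refine e1.trans ?_
    refine rank_le_of_square (α := Hinc (Zr_union_le (X := A₀ ∪ B₀) (A := A₀') (B := B₀'))
      (Zr_union_le (X := A₀ ∪ B₀) (A := A₀) (B := B₀)) (n + 1)) (union_bijective h iW cA₂ cB₂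
      cA₂' cB₂' wA₂ wB₂ pA₂ pB₂ iA₂ iB₂ iA₂' iB₂' (n + 1)).1 fun x => ?_
    rw [Hinc_comp, Hinc_comp]
  · refine rank_le_of_square (α := Hinc (Zr_anti wA₀ le_rfl) (Zr_anti wA₀ le_rfl) (n + 1))
      (world_bijective (k := k) (a := a) (χ := χ) wA₁ le_rfl pA₁ iA₁ (n + 1)).1 fun x => ?_
    rw [Hinc_comp]
    exact (Hinc_comp _ _ _ _ x).symm
  · refine rank_le_of_square (α := Hinc (Zr_anti wB₀ le_rfl) (Zr_anti wB₀ le_rfl) (n + 1))
      (world_bijective (k := k) (a := a) (χ := χ) wB₁ le_rfl pB₁ iB₁ (n + 1)).1 fun x => ?_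
    rw [Hinc_comp]
    exact (Hinc_comp _ _ _ _ x).symm
  · refine rank_le_of_square (α := Hinc
      (((Zr_sup iA₁').le : Zr a χ (A₀ ∪ B₀) A₁' ⊔ Zr a χ (A₀ ∪ B₀) B₁' ≤ _).trans
        (Zr_anti (inter_subset_left.trans wA₁ : A₁ ∩ B₁ ⊆ A₀ ∪ B₀) le_rfl))
      (((Zr_sup iA₁).le : Zr a χ (A₀ ∪ B₀) A₁ ⊔ Zr a χ (A₀ ∪ B₀) B₁ ≤ _).trans
        (Zr_anti (inter_subset_left.trans wA₁ : A₁ ∩ B₁ ⊆ A₀ ∪ B₀) le_rfl)) n)
      (inter_injective wA₂ pA₂ pB₂ iA₂ iB₂ iA₂' n) fun x => ?_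
    rw [Hinc_comp]
    exact (Hinc_comp _ _ _ _ x).symm

/-- Degree zero. -/
theorem mv_rank_sets_zero (h : Tw a χ (A₀ ∪ B₀))
    (cA₁ : IsCompact A₁) (cB₁ : IsCompact B₁) (cA₁' : IsCompact A₁') (cB₁' : IsCompact B₁')
    (iA₀ : Inv a A₀) (iB₀ : Inv a B₀) (iA₁ : Inv a A₁) (iB₁ : Inv a B₁) (iA₁' : Inv a A₁')
    (iB₁' : Inv a B₁') (pA₁ : A₁' ⊆ A₁) (pB₁ : B₁' ⊆ B₁)
    (a₁ : A₁ ⊆ A₀) (a₁' : A₁' ⊆ A₀') (b₁ : B₁ ⊆ B₀) (b₁' : B₁' ⊆ B₀') :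
    LinearMap.rank (resR (union_subset_union a₁ b₁) (union_subset_union a₁' b₁') 0 :
        Hr a χ (A₀ ∪ B₀) (A₀' ∪ B₀') 0 →ₗ[k] Hr a χ (A₁ ∪ B₁) (A₁' ∪ B₁') 0) ≤
      LinearMap.rank (resR a₁ a₁' 0 : Hr a χ A₀ A₀' 0 →ₗ[k] Hr a χ A₁ A₁' 0) +
      LinearMap.rank (resR b₁ b₁' 0 : Hr a χ B₀ B₀' 0 →ₗ[k] Hr a χ B₁ B₁' 0) := by
  have iW : Inv a (A₀ ∪ B₀) := iA₀.union iB₀
  have wA₁ : A₁ ⊆ A₀ ∪ B₀ := a₁.trans subset_union_left
  have wB₁ : B₁ ⊆ A₀ ∪ B₀ := b₁.trans subset_union_right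
  have u := union_subset_union a₁ b₁
  have u' := union_subset_union a₁' b₁'
  -- the target injects into the product
  let ρ : Hr a χ (A₁ ∪ B₁) (A₁' ∪ B₁') 0 →ₗ[k] Hr a χ A₁ A₁' 0 × Hr a χ B₁ B₁' 0 :=
    (resR subset_union_left subset_union_left 0).prod (resR subset_union_right
      subset_union_right 0)
  have hρ : Function.Injective ρ := by
    rw [injective_iff_map_eq_zero]
    intro x hx
    obtain ⟨f, hf, rfl⟩ := H.exists_mk x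
    have h1 : f ∈ Zr a χ A₁ A₁ 0 := by
      have := congrArg Prod.fst hx
      exact mem_Bc_zero.1 (H.mk_eq_zero.1 this)
    have h2 : f ∈ Zr a χ B₁ B₁ 0 := by
      have := congrArg Prod.snd hx
      exact mem_Bc_zero.1 (H.mk_eq_zero.1 this)
    have hi := iA₁.union iB₁
    have hT : Tw a χ (A₁ ∪ B₁) := h.mono u
    have h3 := mv_acyclic_mem (n := 0) (f := f) hT hi cA₁ cB₁ subset_union_left
      subset_union_right iA₁ iB₁ ⟨⟨⟨hf.1.1, h1.2⟩, hf.1.1, h2.2⟩, hf.2⟩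
    rw [H.mk_eq_zero, mem_Bc_zero]
    exact mem_Bc_zero.1 h3
  refine (rank_le_of_square (φ' := (resR a₁ a₁' 0).prodMap (resR b₁ b₁' 0))
    (α := (resR subset_union_left subset_union_left 0).prod (resR subset_union_right
      subset_union_right 0)) hρ fun x => ?_).trans (rank_prodMap_le _ _)
  obtain ⟨f, hf, rfl⟩ := H.exists_mk x
  rfl

/-- Vanishing of the restriction to a union of two pairs. -/
theorem resR_union_zero (h : Tw a χ (A₀ ∪ B₀))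
    (cA₀ : IsCompact A₀) (cB₀ : IsCompact B₀) (cA₀' : IsCompact A₀') (cB₀' : IsCompact B₀')
    (cA₁ : IsCompact A₁) (cB₁ : IsCompact B₁) (cA₁' : IsCompact A₁') (cB₁' : IsCompact B₁')
    (cA₂ : IsCompact A₂) (cB₂ : IsCompact B₂) (cA₂' : IsCompact A₂') (cB₂' : IsCompact B₂')
    (iA₀ : Inv a A₀) (iB₀ : Inv a B₀) (iA₀' : Inv a A₀') (iB₀' : Inv a B₀')
    (iA₁ : Inv a A₁) (iB₁ : Inv a B₁) (iA₁' : Inv a A₁') (iB₁' : Inv a B₁')
    (iA₂ : Inv a A₂) (iB₂ : Inv a B₂) (iA₂' : Inv a A₂') (iB₂' : Inv a B₂')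
    (pA₀ : A₀' ⊆ A₀) (pB₀ : B₀' ⊆ B₀) (pA₁ : A₁' ⊆ A₁) (pB₁ : B₁' ⊆ B₁) (pA₂ : A₂' ⊆ A₂)
    (pB₂ : B₂' ⊆ B₂)
    (a₁ : A₁ ⊆ A₀) (a₁' : A₁' ⊆ A₀') (b₁ : B₁ ⊆ B₀) (b₁' : B₁' ⊆ B₀')
    (a₂ : A₂ ⊆ A₁) (a₂' : A₂' ⊆ A₁') (b₂ : B₂ ⊆ B₁) (b₂' : B₂' ⊆ B₁')
    (zA : ∀ n, ∀ x : Hr a χ A₀ A₀' n, (resR a₁ a₁' n : _ →ₗ[k] Hr a χ A₁ A₁' n) x = 0)
    (zB : ∀ n, ∀ x : Hr a χ B₀ B₀' n, (resR b₁ b₁' n : _ →ₗ[k] Hr a χ B₁ B₁' n) x = 0)
    (zI : ∀ n, ∀ x : Hr a χ (A₁ ∩ B₁) (A₁' ∩ B₁') n,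
      (resR (inter_subset_inter a₂ b₂) (inter_subset_inter a₂' b₂') n :
        _ →ₗ[k] Hr a χ (A₂ ∩ B₂) (A₂' ∩ B₂') n) x = 0) (n : ℕ)
    (x : Hr a χ (A₀ ∪ B₀) (A₀' ∪ B₀') n) :
    (resR (union_subset_union (a₂.trans a₁) (b₂.trans b₁))
      (union_subset_union (a₂'.trans a₁') (b₂'.trans b₁')) n :
        _ →ₗ[k] Hr a χ (A₂ ∪ B₂) (A₂' ∪ B₂') n) x = 0 := by
  have hz : ∀ {V W : Type} [AddCommGroup V] [Module k V] [AddCommGroup W] [Module k W]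
      (φ : V →ₗ[k] W), (∀ x, φ x = 0) → LinearMap.rank φ = 0 := by
    intro V W _ _ _ _ φ hφ
    have : φ = 0 := LinearMap.ext hφ
    rw [this, LinearMap.rank_zero]
  have hz' : ∀ {V W : Type} [AddCommGroup V] [Module k V] [AddCommGroup W] [Module k W]
      (φ : V →ₗ[k] W), LinearMap.rank φ ≤ 0 → ∀ x, φ x = 0 := by
    intro V W _ _ _ _ φ hφ x
    have h0 : LinearMap.rank φ = 0 := le_antisymm hφ zero_le
    have h1 : LinearMap.range φ = ⊥ := Submodule.rank_eq_zero.1 h0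
    have h2 : φ x ∈ LinearMap.range φ := ⟨x, rfl⟩
    rw [h1] at h2
    exact (Submodule.mem_bot k).1 h2
  cases n with
  | zero =>
    have h0 := mv_rank_sets_zero (k := k) (χ := χ) (A₀' := A₀') (B₀' := B₀') h cA₁ cB₁ cA₁' cB₁' iA₀ iB₀ iA₁ iB₁
      iA₁' iB₁' pA₁ pB₁ a₁ a₁' b₁ b₁'
    rw [hz _ (zA 0), hz _ (zB 0), add_zero] at h0
    have h1 := hz' _ h0 x
    rw [← resR_resR (union_subset_union a₁ b₁) (union_subset_union a₂ b₂)
      (union_subset_union a₁' b₁') (union_subset_union a₂' b₂'), h1, map_zero]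
  | succ n =>
    have h0 := mv_rank_sets (k := k) (χ := χ) h cA₀ cB₀ cA₀' cB₀' cA₂ cB₂ cA₂' cB₂' iA₀ iB₀ iA₀' iB₀' iA₁ iB₁
      iA₁' iB₁' iA₂ iB₂ iA₂' iB₂' pA₀ pB₀ pA₁ pB₁ pA₂ pB₂ a₁ a₁' b₁ b₁' a₂ a₂' b₂ b₂' n
    rw [hz _ (zA (n + 1)), hz _ (zB (n + 1)), hz _ (zI n), add_zero, add_zero] at h0
    exact hz' _ h0 x

end Thick

/-- **Vanishing of the restriction to a union**, absolute version, for nested triples of compact
invariant sets. -/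
theorem res_union_zero {A₀ A₁ A₂ B₀ B₁ B₂ : Set E} (h : Tw a χ (A₀ ∪ B₀))
    (cA₀ : IsCompact A₀) (cB₀ : IsCompact B₀) (cA₁ : IsCompact A₁) (cB₁ : IsCompact B₁)
    (cA₂ : IsCompact A₂) (cB₂ : IsCompact B₂)
    (iA₀ : Inv a A₀) (iB₀ : Inv a B₀) (iA₁ : Inv a A₁) (iB₁ : Inv a B₁) (iA₂ : Inv a A₂)
    (iB₂ : Inv a B₂) (a₁ : A₁ ⊆ A₀) (b₁ : B₁ ⊆ B₀) (a₂ : A₂ ⊆ A₁) (b₂ : B₂ ⊆ B₁)
    (zA : ∀ n, ∀ x : Ha a χ A₀ n, (res a₁ n : _ →ₗ[k] Ha a χ A₁ n) x = 0)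
    (zB : ∀ n, ∀ x : Ha a χ B₀ n, (res b₁ n : _ →ₗ[k] Ha a χ B₁ n) x = 0)
    (zI : ∀ n, ∀ x : Ha a χ (A₁ ∩ B₁) n,
      (res (inter_subset_inter a₂ b₂) n : _ →ₗ[k] Ha a χ (A₂ ∩ B₂) n) x = 0) (n : ℕ)
    (x : Ha a χ (A₀ ∪ B₀) n) :
    (res (union_subset_union (a₂.trans a₁) (b₂.trans b₁)) n :
        _ →ₗ[k] Ha a χ (A₂ ∪ B₂) n) x = 0 := by
  have zI' : ∀ n, ∀ x : Hr a χ (A₁ ∩ B₁) (∅ ∩ ∅) n,
      (resR (inter_subset_inter a₂ b₂) (inter_subset_inter (subset_refl ∅) (subset_refl ∅)) n :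
        _ →ₗ[k] Hr a χ (A₂ ∩ B₂) (∅ ∩ ∅) n) x = 0 := by
    intro n x
    have e : (∅ ∩ ∅ : Set E) = ∅ := inter_self _
    have key : ∀ (C : Set E) (_ : C = ∅) (x : Hr a χ (A₁ ∩ B₁) C n),
        (resR (inter_subset_inter a₂ b₂) (subset_refl C) n :
          _ →ₗ[k] Hr a χ (A₂ ∩ B₂) C n) x = 0 := by
      intro C hC
      subst hC
      exact (res_zero_iff _ n).1 (zI n)
    exact key _ e x
  have hu := resR_union_zero (k := k) (χ := χ) (A₀' := ∅) (B₀' := ∅) (A₁' := ∅) (B₁' := ∅) (A₂' := ∅)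
    (B₂' := ∅) h cA₀ cB₀ isCompact_empty isCompact_empty cA₁ cB₁ isCompact_empty
    isCompact_empty cA₂ cB₂ isCompact_empty isCompact_empty iA₀ iB₀ inv_empty inv_empty iA₁ iB₁
    inv_empty inv_empty iA₂ iB₂ inv_empty inv_empty (empty_subset _) (empty_subset _)
    (empty_subset _) (empty_subset _) (empty_subset _) (empty_subset _) a₁ (subset_refl _) b₁
    (subset_refl _) a₂ (subset_refl _) b₂ (subset_refl _)
    (fun n => (res_zero_iff a₁ n).1 (zA n)) (fun n => (res_zero_iff b₁ n).1 (zB n)) zI' n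
  have key : ∀ (C : Set E) (_ : C = ∅), (∀ x : Hr a χ (A₀ ∪ B₀) C n,
      (resR (union_subset_union (a₂.trans a₁) (b₂.trans b₁)) (subset_refl C) n :
        _ →ₗ[k] Hr a χ (A₂ ∪ B₂) C n) x = 0) →
      ∀ x : Ha a χ (A₀ ∪ B₀) n, (res (union_subset_union (a₂.trans a₁) (b₂.trans b₁)) n :
        _ →ₗ[k] Ha a χ (A₂ ∪ B₂) n) x = 0 := by
    intro C hC
    subst hC
    exact (res_zero_iff _ n).2
  exact key _ (union_self _) hu x

/-- A relative class vanishing on `A` comes from a class vanishing on a neighbourhood of `A`. -/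
theorem exists_relative_nhd (h : Tw a χ X) (hX : Inv a X) (hA : IsCompact A) (hAX : A ⊆ X)
    (hAi : Inv a A) {n : ℕ} (x : Hr a χ X A n) :
    ∃ ε₀ > 0, ∀ N, A ⊆ N → N ⊆ Nb X A ε₀ →
      ∃ (hN : A ⊆ N) (y : Hr a χ X N n), resR le_rfl hN n y = x := by
  have hb := Hinc_bijective_of_top (T := Zr a χ X X) (S := Zn a χ X A) (S' := Zr a χ X A)
    (by rw [Zr_self_eq_Zn]; exact Zn_anti le_rfl hAX) (Zn_le_Zr hAX)
    (fun m => taut h hX hA hAX hAi m) n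
  obtain ⟨y, rfl⟩ := hb.2 x
  obtain ⟨f, hf, rfl⟩ := H.exists_mk y
  obtain ⟨ε, hε, hv⟩ := exists_nhd hf.1.2
  refine ⟨ε, hε, fun N hAN hN => ⟨hAN, H.mk f ⟨⟨hf.1.1, hv.mono hN⟩, hf.2⟩, rfl⟩⟩

/-- **Continuity, surjectivity**: a class on the compact set `A` extends to a neighbourhood. -/
theorem exists_extension (h : Tw a χ X) (hX : Inv a X) (hA : IsCompact A) (hAX : A ⊆ X)
    (hAi : Inv a A) {n : ℕ} (x : Ha a χ A n) :
    ∃ ε₀ > 0, ∀ N, A ⊆ N → N ⊆ Nb X A ε₀ →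
      ∃ (hN : A ⊆ N) (y : Ha a χ N n), res hN n y = x := by
  obtain ⟨y, rfl⟩ := (world_bijective' (k := k) (a := a) (χ := χ) hAX le_rfl hAi n).2 x
  have hb := Hinc_bijective_of_bot (T := Zn a χ X A) (T' := Zr a χ X A) (S := Cc a χ X)
    (Zn_le_Zr hAX) Zr_le_Cc (fun m => taut h hX hA hAX hAi m) n
  obtain ⟨z, rfl⟩ := hb.2 y
  obtain ⟨f, hf, rfl⟩ := H.exists_mk z
  obtain ⟨ε, hε, hv⟩ := exists_nhd hf.2.2
  have hf1 : Eqv a χ X f := hf.1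
  refine ⟨ε, hε, fun N hAN hN => ⟨hAN, H.mk f ⟨?_, ?_, ?_⟩, rfl⟩⟩
  · exact hf1.mono (hN.trans Nb_sub)
  · exact hf1.d.mono (hN.trans Nb_sub)
  · exact hv.mono hN

/-- **Continuity, injectivity**: a class on `X` which vanishes on the compact set `A` vanishes on
a neighbourhood of `A`. -/
theorem exists_vanishing_nhd (h : Tw a χ X) (hX : Inv a X) (hA : IsCompact A) (hAX : A ⊆ X)
    (hAi : Inv a A) {n : ℕ} (x : Ha a χ X n) (hx : res hAX n x = 0) :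
    ∃ ε₀ > 0, ∀ N, N ⊆ Nb X A ε₀ → ∀ hN : N ⊆ X, res hN n x = 0 := by
  -- in the world `X`
  have h1 : Hinc (le_refl (Cc a χ X)) (Zr_anti le_rfl hAX : Zr a χ X X ≤ Zr a χ X A) n x = 0 := by
    apply (world_bijective' (k := k) (a := a) (χ := χ) hAX le_rfl hAi n).1
    rw [map_zero, Hinc_comp]
    exact hx
  have hb := Hinc_bijective_of_bot (T := Zn a χ X A) (T' := Zr a χ X A) (S := Cc a χ X)
    (Zn_le_Zr hAX) Zr_le_Cc (fun m => taut h hX hA hAX hAi m) n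
  have l : Zr a χ X X ≤ Zn a χ X A := by rw [Zr_self_eq_Zn]; exact Zn_anti le_rfl hAX
  have h2 : Hinc (le_refl (Cc a χ X)) l n x = 0 := by
    apply hb.1
    rw [map_zero, Hinc_comp]
    exact h1
  obtain ⟨f, hf, rfl⟩ := H.exists_mk x
  rw [Hinc_mk, H.mk_eq_zero] at h2
  obtain ⟨t, ht, w, hw, htw⟩ := mem_Bc.1 h2
  obtain ⟨ε, hε, hv⟩ := exists_nhd ht.2
  refine ⟨ε, hε, fun N hN hNX => ?_⟩
  change H.mk f (Zc_mono (Cc_anti hNX) (Zr_anti hNX hNX) n hf) = 0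
  rw [H.mk_eq_zero, mem_Bc]
  refine ⟨t, ⟨ht.1.mono hNX, hv.mono hN⟩, w, im_mono (Cc_anti hNX) n hw, htw⟩

end MetricSp

end Vale.Agent.P216.F2
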